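import Crest.Agent.N250.FV.Ch
import Crest.Agent.N250.Cn.Tube
import Crest.Agent.N250.Gc.Img
import Crest.Agent.N250.R.One

/-!
# Row 250 (helper13): derivatives and first variation densities of the ambient constraint functions
-/

set_option autoImplicit false
open MeasureTheory Set Filter Topology Function Metric
open scoped ContDiff InnerProductSpace
open Crest.GeometryTopology.MCF

noncomputable section

namespace Crest.Agent.N250.Am

open Tr FV Gc

variable {S G : Mv} {Z X : ST → E} {φ u : ST → ℝ} {g : E → ℝ} {t δ : ℝ} {p : ST} {x y : E}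

theorem inner_grad (g : E → ℝ) (x v : E) : ⟪gradient g x, v⟫_ℝ = fderiv ℝ g x v := by
  simp [gradient, InnerProductSpace.toDual_symm_apply]

/-- tangential derivatives only see the slice -/
theorem td_slice {V : Type} [NormedAddCommGroup V] [NormedSpace ℝ V] {f f' : ST → V} (hS : S.Reg)
    (hp : p ∈ S.M) (h1 : DifferentiableWithinAt ℝ f S.M p) (h2 : DifferentiableWithinAt ℝ f' S.M p)
    (he : ∀ᶠ x in 𝓝 p.1, x ∈ S.sl p.2 → f (x, p.2) = f' (x, p.2)) (v : E) :
    S.td f p (S.PL p v, 0) = S.td f' p (S.PL p v, 0) := by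
  obtain ⟨Y, U, W, L, hW, c⟩ := exists_ch hS hp
  have hq := c.inU p hp hW
  have e : Ps Y (L p.1, p.2) = p := Prod.ext (c.right p hp hW) rfl
  have k := fun (f : ST → V) (h : DifferentiableWithinAt ℝ f S.M p) =>
    HasFDerivAt.comp (L p.1) (f := fun z : E2 => (z, p.2)) (c.hasF hq (e.symm ▸ h))
      (hasFDerivAt_prodMk_left (L p.1) p.2)
  have hc : Tendsto (fun z => Y (z, p.2)) (𝓝 (L p.1)) (𝓝 p.1) := by
    have := (c.hasX hq).continuousAt.tendsto.comp ((Continuous.prodMk_left p.2).tendsto (L p.1))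
    rwa [c.right p hp hW] at this
  have := (k f h1).unique ((k f' h2).congr_of_eventuallyEq (by
    filter_upwards [hc.eventually he, (c.oUt p.2).mem_nhds hq] with z a b using a (c.mem _ b)))
  have e2 := congrArg (fun T : E2 →L[ℝ] V => T (La Y (L p.1, p.2) v)) this
  have e3 := c.Jz_La hS hq v
  rw [e] at e2 e3
  rw [← e3]
  exact e2

theorem D_slice {f f' : ST → ℝ} (hS : S.Reg) (hp : p ∈ S.M) (h1 : S.Sm f) (h2 : S.Sm f')
    (he : ∀ᶠ x in 𝓝 p.1, x ∈ S.sl p.2 → f (x, p.2) = f' (x, p.2)) (a : Fin 3) :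
    S.D a f p = S.D a f' p :=
  td_slice hS hp ((h1 p hp).differentiableWithinAt (by simp))
    ((h2 p hp).differentiableWithinAt (by simp)) he _

/-- chain rule -/
theorem D_comp (hS : S.Reg) (hp : p ∈ S.M) (hX : S.Sm X) (hg : DifferentiableAt ℝ g (X p))
    (a : Fin 3) : S.D a (fun q => g (X q)) p = dot (S.JX X p a) fun c => gradient g (X p) c := by
  have h1 := ((hX p hp).differentiableWithinAt (by simp)).hasFDerivWithinAt
  rw [D_def, td_eq (f := fun q => g (X q)) (hg.hasFDerivAt.comp_hasFDerivWithinAt p h1)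
    (PL_mem hS hp _),
    ContinuousLinearMap.comp_apply, ← inner_grad, inner_eq_dot, dot_comm]
  congr 1
  exact funext fun c => (hS.JX_eq hX hp a c).symm

/-- the normal component of the gradient from the derivative along `V` and along the image -/
theorem grad_NX (hS : S.Reg) (hp : p ∈ S.M) (hX : S.Sm X) (hg : DifferentiableAt ℝ g (X p))
    (V : E) : ⟪gradient g (X p), S.NX X p⟫_ℝ * ⟪S.NX X p, V⟫_ℝ =
      S.sX X p ^ 2 * ⟪gradient g (X p), V⟫_ℝ -
        ∑ a, dot (S.WX X p a) (fun c => V c) * S.D a (fun q => g (X q)) p := by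
  have e := (hS.fr hp X).dec' fun c => V c
  have e0 := e 0
  have e1 := e 1
  have e2 := e 2
  simp only [D_comp hS hp hX hg, Mv.sX_sq, inner_eq_dot, Mv.NX_apply, Mv.WX]
  generalize G2 (fun a => S.nu a p) (S.JX X p) = A at *
  simp only [dot, Fin.sum_univ_three] at e0 e1 e2 ⊢
  linear_combination -(gradient g (X p) 0 * e0 + gradient g (X p) 1 * e1 + gradient g (X p) 2 * e2)

theorem lin_zero (h : Cn.Lin S Z t δ φ g) (hδ : 0 ≤ δ) (hy : y ∈ S.sl t) : g y = 0 := by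
  simpa using h y hy 0 (by rw [abs_zero]; positivity)

/-- derivative along the fibres -/
theorem grad_Z (h : Cn.Lin S Z t δ φ g) (hg : Differentiable ℝ g) (hy : y ∈ S.sl t) {s : ℝ}
    (hs : |s| < δ * (1 + ‖y‖)) : ⟪gradient g (y + s • Z (y, t)), Z (y, t)⟫_ℝ = φ (y, t) := by
  have d1 : HasDerivAt (fun s : ℝ => y + s • Z (y, t)) (Z (y, t)) s := by
    simpa using ((hasDerivAt_id s).smul_const (Z (y, t))).const_add y
  have d2 : HasDerivAt (fun s : ℝ => s * φ (y, t)) (φ (y, t)) s := by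
    simpa using (hasDerivAt_id s).mul_const (φ (y, t))
  rw [inner_grad]
  refine ((hg _).hasFDerivAt.comp_hasDerivAt s d1).unique (d2.congr_of_eventuallyEq ?_)
  filter_upwards [continuous_abs.continuousAt.eventually (gt_mem_nhds hs)] with r hr
  exact h y hy r hr.le

/-- graphs along `Z`: values -/
theorem val_graph (h : Cn.Lin S Z t δ φ g) (hu : S.Sm u) (hy : y ∈ S.sl t)
    (hs : |u (y, t)| < δ * (1 + ‖y‖))
    (he : ∀ᶠ x in 𝓝 y, x ∈ S.sl t → X (x, t) = x + u (x, t) • Z (x, t)) :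
    ∀ᶠ x in 𝓝 y, x ∈ S.sl t → g (X (x, t)) = u (x, t) * φ (x, t) := by
  have hc : ContinuousWithinAt (fun x => δ * (1 + ‖x‖) - |u (x, t)|) (S.sl t) y :=
    (by fun_prop : Continuous fun x : E => δ * (1 + ‖x‖)).continuousWithinAt.sub
      ((hu.continuousOn.comp (Continuous.prodMk_left t).continuousOn fun _ h => h) y hy).abs
  filter_upwards [he, eventually_nhdsWithin_iff.1 (hc.eventually (lt_mem_nhds (sub_pos.2 hs)))]
    with x a b hx
  rw [a hx, h x hx _ (sub_pos.1 (b hx)).le]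

/-- graphs along `Z`: the normal derivative -/
theorem grad_graph (hS : S.Reg) (h : Cn.Lin S Z t δ φ g) (hg : ContDiff ℝ ∞ g) (hX : S.Sm X)
    (hu : S.Sm u) (hφ : S.Sm φ) (hy : y ∈ S.sl t) (hs : |u (y, t)| < δ * (1 + ‖y‖))
    (he : ∀ᶠ x in 𝓝 y, x ∈ S.sl t → X (x, t) = x + u (x, t) • Z (x, t)) :
    ⟪gradient g (X (y, t)), S.NX X (y, t)⟫_ℝ * ⟪S.NX X (y, t), Z (y, t)⟫_ℝ =
      S.sX X (y, t) ^ 2 * φ (y, t) -
        ∑ a, dot (S.WX X (y, t) a) (fun c => Z (y, t) c) * S.D a (fun q => u q * φ q) (y, t) := by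
  have hd := hg.differentiable (by simp)
  rw [grad_NX hS hy hX (hd _), he.self_of_nhds hy, grad_Z h hd hy hs]
  congr 1
  refine Finset.sum_congr rfl fun a _ => ?_
  exact congrArg _ (D_slice hS hy (hg.comp_contDiffOn hX) (hu.mul hφ) (val_graph h hu hy hs he) a)

/-- on `S` itself the gradient is `φ n` -/
theorem grad_n (hS : S.Reg) (h : Cn.Lin S Z t δ φ g) (hδ : 0 < δ) (hg : Differentiable ℝ g)
    (hy : y ∈ S.sl t) : ⟪gradient g y, S.n (y, t)⟫_ℝ * ⟪S.n (y, t), Z (y, t)⟫_ℝ = φ (y, t) := by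
  have d : HasFDerivAt (fun q : ST => g q.1) ((fderiv ℝ g y).comp (ContinuousLinearMap.fst ..))
      (y, t) := HasFDerivAt.comp (y, t) (hg y).hasFDerivAt hasFDerivAt_fst
  have e := td_slice (f' := fun _ => (0 : ℝ)) hS (p := (y, t)) hy
    d.differentiableAt.differentiableWithinAt (differentiableWithinAt_const _)
    (.of_forall fun x hx => lin_zero h hδ.le hx) (Z (y, t))
  rw [td_eq d.hasFDerivWithinAt (PL_mem hS hy _),
    td_eq (hasFDerivWithinAt_const _ _ _) (PL_mem hS hy _)] at e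
  have e1 : ⟪gradient g y, S.PL (y, t) (Z (y, t))⟫_ℝ = 0 := by rw [inner_grad]; exact e
  have e2 := grad_Z h hg hy (s := 0) (by rw [abs_zero]; positivity)
  rw [zero_smul, add_zero] at e2
  rw [Mv.PL, inner_sub_right, inner_smul_right, e2] at e1
  linarith

theorem gau_hasF (x : E) : HasFDerivAt (gau 0 1) ((-gau 0 1 x / 2) • innerSL ℝ x) x := by
  have e : gau 0 1 = fun y : E => (4 * Real.pi)⁻¹ * Real.exp (-1 / 4 * ‖y‖ ^ 2) := by
    funext y
    rw [gau, sub_zero, mul_one]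
    congr 2
    ring
  rw [e]
  refine (((hasStrictFDerivAt_norm_sq x).hasFDerivAt.const_mul (-1 / 4 : ℝ)).exp.const_mul
    (4 * Real.pi)⁻¹).congr_fderiv ?_
  ext v
  simp
  ring

theorem contDiff_gau : ContDiff ℝ ∞ (gau 0 1) :=
  contDiff_const.mul (((contDiff_norm_sq ℝ).comp (contDiff_id.sub contDiff_const)).neg.div_const
    _).exp

/-- gradient of `gau * g` -/
theorem grad_gau_mul (hg : DifferentiableAt ℝ g x) (v : E) :
    ⟪gradient (fun y => gau 0 1 y * g y) x, v⟫_ℝ =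
      gau 0 1 x * (⟪gradient g x, v⟫_ℝ - g x * ⟪x, v⟫_ℝ / 2) := by
  have d : HasFDerivAt (fun y => gau 0 1 y * g y) _ x := (gau_hasF x).mul hg.hasFDerivAt
  rw [inner_grad, inner_grad, d.fderiv]
  simp
  ring

/-- first variation density of `gau * g` on any surface -/
theorem fv_gau (hg : DifferentiableAt ℝ g p.1) : G.fv (fun y => gau 0 1 y * g y) p =
    gau 0 1 p.1 * (⟪gradient g p.1, G.n p⟫_ℝ + g p.1 * G.shr p) := by
  rw [Mv.fv, grad_gau_mul hg, Mv.shr, Mv.xn, sub_zero]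
  ring

/-- first variation density on `S` -/
theorem fv_lin (hS : S.Reg) (h : Cn.Lin S Z t δ φ g) (hδ : 0 < δ) (hg : Differentiable ℝ g)
    (hy : y ∈ S.sl t) (hn : ⟪S.n (y, t), Z (y, t)⟫_ℝ = 1) :
    S.fv (fun y => gau 0 1 y * g y) (y, t) = gau 0 1 y * φ (y, t) := by
  have e := grad_n hS h hδ hg hy
  rw [hn, mul_one] at e
  rw [fv_gau (hg _), e, lin_zero h hδ.le hy, zero_mul, add_zero]

/-- the right hand side of `Fm.Dat.Sol.el` for `f = gau * g` -/
theorem el_term (hg : DifferentiableAt ℝ g (X p)) :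
    S.sX X p ^ 2 * ⟪gradient (fun y => gau 0 1 y * g y) (X p), S.NX X p⟫_ℝ +
        S.HX X p * (gau 0 1 (X p) * g (X p)) =
      gau 0 1 (X p) * (S.sX X p ^ 2 * ⟪gradient g (X p), S.NX X p⟫_ℝ + g (X p) * S.ELX X p / 2) := by
  have e : S.ELX X p = 2 * S.HX X p - ⟪X p, S.NX X p⟫_ℝ * S.sX X p ^ 2 := by
    rw [Mv.sX_sq, inner_eq_dot]; rfl
  rw [grad_gau_mul hg, e]
  ring

/-- `Fm.Dat.Sol.el` from the core equation, cleared of denominators -/
theorem el_of_eq {κ : Type} [Fintype κ] {g : κ → E → ℝ} {φ : κ → ST → ℝ} {c : κ → ℝ} {V : E}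
    (hS : S.Reg) (hp : p ∈ S.M) (hX : S.Sm X) (hu : S.Sm u) (hφ : ∀ i, S.Sm (φ i))
    (hg : ∀ i, ContDiff ℝ ∞ (g i))
    (h1 : ∀ i, ∀ᶠ x in 𝓝 p.1, x ∈ S.sl p.2 → g i (X (x, p.2)) = u (x, p.2) * φ i (x, p.2))
    (h2 : ∀ i, ⟪gradient (g i) (X p), V⟫_ℝ = φ i p) (hN : ⟪S.NX X p, V⟫_ℝ ≠ 0)
    (hE : S.ELX X p * ⟪S.NX X p, V⟫_ℝ * (1 - u p * ∑ i, c i * φ i p) =
      2 * S.sX X p ^ 2 * (S.sX X p ^ 2 * ∑ i, c i * φ i p -
        ∑ a, dot (S.WX X p a) (fun c => V c) * ∑ i, c i * S.D a (fun q => u q * φ i q) p)) :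
    gau 0 1 (X p) * S.ELX X p / 2 =
      ∑ i, c i * (S.sX X p ^ 2 * ⟪gradient (fun y => gau 0 1 y * g i y) (X p), S.NX X p⟫_ℝ +
        S.HX X p * (gau 0 1 (X p) * g i (X p))) := by
  have hd := fun i => (hg i).differentiable (by simp) (X p)
  have e : ∀ i, ⟪gradient (g i) (X p), S.NX X p⟫_ℝ * ⟪S.NX X p, V⟫_ℝ = S.sX X p ^ 2 * φ i p -
      ∑ a, dot (S.WX X p a) (fun c => V c) * S.D a (fun q => u q * φ i q) p := fun i => by
    rw [grad_NX hS hp hX (hd i), h2]
    congr 1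
    refine Finset.sum_congr rfl fun a _ => ?_
    exact congrArg _ (D_slice hS hp ((hg i).comp_contDiffOn hX) (hu.mul (hφ i)) (h1 i) a)
  have e1 : ∀ i, g i (X p) = u p * φ i p := fun i => (h1 i).self_of_nhds hp
  refine mul_right_cancel₀ hN ?_
  have e2 : ∀ i, c i * (S.sX X p ^ 2 * ⟪gradient (fun y => gau 0 1 y * g i y) (X p), S.NX X p⟫_ℝ +
      S.HX X p * (gau 0 1 (X p) * g i (X p))) * ⟪S.NX X p, V⟫_ℝ =
      gau 0 1 (X p) * (S.sX X p ^ 2 * S.sX X p ^ 2 + u p * S.ELX X p / 2 * ⟪S.NX X p, V⟫_ℝ) *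
        (c i * φ i p) - gau 0 1 (X p) * S.sX X p ^ 2 * ∑ a, dot (S.WX X p a) (fun c => V c) *
          (c i * S.D a (fun q => u q * φ i q) p) := fun i => by
    rw [el_term (hd i), e1]
    have := e i
    simp only [Fin.sum_univ_three] at this ⊢
    linear_combination c i * gau 0 1 (X p) * S.sX X p ^ 2 * this
  rw [Finset.sum_mul, Finset.sum_congr rfl fun i _ => e2 i, Finset.sum_sub_distrib,
    ← Finset.mul_sum, ← Finset.mul_sum, Finset.sum_comm]
  simp only [← Finset.mul_sum]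
  linear_combination gau 0 1 (X p) / 2 * hE

end Crest.Agent.N250.Am

end
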